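import Vale.Agent.P231.S3B5.Tail
import Vale.Agent.P231.S3B3.InscF
import Vale.Agent.P231.S3B3.Hf3b
import Vale.Agent.P231.S3E2.Fin
import Vale.Agent.P231.S3V.MapZ

/-!
# P231, stage 3, block S3-B, chain: from the pushed doubled loops to the closed family
-/

set_option maxSynthPendingDepth 3
set_option linter.unusedSectionVars false
set_option linter.unusedVariables false

open Bundle Manifold Set Filter Module MeasureTheory
open scoped ContDiff Manifold Topology ENNReal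

namespace Vale.Agent.P231.S3B5

noncomputable section

open Vale.Agent.P234 Vale.Agent.P231 Vale.Agent.P231.Fm Vale.Agent.P231.W Vale.Agent.P231.WR
open Vale.Agent.P231.WF Vale.Agent.P231.H766 Vale.Agent.P231.S2N Vale.Agent.P231.S3S
open Vale.Agent.P231.S3Y Vale.Agent.P231.S3B1 Vale.Agent.P231.S3A Vale.Agent.P231.S3B3

variable {E : Type*} [NormedAddCommGroup E] [NormedSpace ℝ E]
  {M : Type*} [MetricSpace M] [ChartedSpace E M]
  [RiemannianBundle (fun x : M => TangentSpace 𝓘(ℝ, E) x)]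
  {e : ∀ x : M, TangentSpace 𝓘(ℝ, E) x → M}
  [FiniteDimensional ℝ E] [IsManifold 𝓘(ℝ, E) ∞ M]
  [IsContMDiffRiemannianBundle 𝓘(ℝ, E) ∞ E (fun x : M => TangentSpace 𝓘(ℝ, E) x)]
  [CompactSpace M] [ConnectedSpace M] [IsRiemannianManifold 𝓘(ℝ, E) M]

variable {ι : Type} [Fintype ι] [DecidableEq ι]

variable {F : Facts e} {D : ℝ} {hD : 0 < D} {hB : InjGE e D} {hdiam : ∀ p q : M, dist p q ≤ D}
  {l : ℕ} {X δ W : ι → UT E M → E} {ε r : ℝ} {ψ : ℝ → ℝ}

/-! ### the boundary operator as a source -/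

/-- the boundary values of the fields `XX X c` -/
def TT (F : Facts e) (hD : 0 < D) (hB : InjGE e D) (hdiam : ∀ p q : M, dist p q ≤ D)
    (X : ι → UT E M → E) (u : UT E M) (c : EuclideanSpace ℝ ι) : E :=
  Th0 F hD hB hdiam (XX X c) u

theorem src_TT (hP : ∀ x y : M, dist x y = D → finrank ℝ (H775.Pl e D x y) = l + 1)
    (h : S2N.Fam F hD hB hdiam l X δ ε) :
    Src F hD hB hdiam (Pm F D X δ ε) (TT F hD hB hdiam X) where
  add u c c' := congrArg (fun z : Lf e D u => ((z : TangentSpace 𝓘(ℝ, E) (foot u)) : E))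
    (map_add (ThL F hD hB hdiam X u) c c')
  smul u k c := congrArg (fun z : Lf e D u => ((z : TangentSpace 𝓘(ℝ, E) (foot u)) : E))
    (map_smul (ThL F hD hB hdiam X u) k c)
  mem u c := Th0_mem F hD hB hdiam _ u
  smooth {E'} _ _ _ {u c x} hu hc := by
    have hTh : ∀ i, Fld (Th0 F hD hB hdiam (X i)) := fun i =>
      fld_Th0 F hD hB hdiam hP (h.df i).fld
    have h1 := at_XX hTh hu hc
    have h2 : (fun s => tb (foot (u s)) (TT F hD hB hdiam X (u s) (c s))) =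
        fun s => tb (foot (u s)) (XX (fun i => Th0 F hD hB hdiam (X i)) (c s) (u s)) := by
      funext s
      refine tb_congr rfl ?_
      unfold TT
      rw [Th0_XX]
      rfl
    rw [h2]
    exact h1
  half u c _ := Th0_half F hD hB hdiam (XX X c) u
  inj u c hc h0 := h.inj hP u hc h0
  P_phi u t := Fam.Pm_phi F hD hB hdiam X δ ε u t

/-- the two sources pair to the square of the norm -/
theorem ip_wv_TT (hP : ∀ x y : M, dist x y = D → finrank ℝ (H775.Pl e D x y) = l + 1)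
    (h : S2N.Fam F hD hB hdiam l X δ ε) (u : UT E M) {c : EuclideanSpace ℝ ι}
    (hc : Pm F D X δ ε u c = c) :
    ip (foot u) (S3V.wv (S3E2.Wi F hD hB hdiam X δ ε) u c) (TT F hD hB hdiam X u c) =
      ‖c‖ ^ 2 := by
  unfold S3V.wv TT
  rw [WR.ip_sum_left, EuclideanSpace.norm_sq_eq]
  refine Finset.sum_congr rfl fun i _ => ?_
  rw [WR.ip_smul_left', S3E2.ip_Wi hP h i u hc, Real.norm_eq_abs, sq_abs, sq]

theorem mx_inj (hP : ∀ x y : M, dist x y = D → finrank ℝ (H775.Pl e D x y) = l + 1)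
    (h : S2N.Fam F hD hB hdiam l X δ ε) {θ : ℝ} (hθ : θ ∈ Icc (0 : ℝ) 1) (u : UT E M)
    {c : EuclideanSpace ℝ ι} (hc : Pm F D X δ ε u c = c)
    (h0 : mx (S3V.wv (S3E2.Wi F hD hB hdiam X δ ε)) (TT F hD hB hdiam X) θ u c = 0) : c = 0 := by
  rcases eq_or_lt_of_le hθ.2 with h1 | h1
  · rw [h1, mx_one] at h0
    exact h.inj hP u hc h0
  · have h2 : ip (foot u) (mx (S3V.wv (S3E2.Wi F hD hB hdiam X δ ε)) (TT F hD hB hdiam X) θ u c)
        (TT F hD hB hdiam X u c) = (1 - θ) * ‖c‖ ^ 2 +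
          θ * ip (foot u) (TT F hD hB hdiam X u c) (TT F hD hB hdiam X u c) := by
      unfold mx
      rw [ip_add_left', WR.ip_smul_left', WR.ip_smul_left', ip_wv_TT hP h u hc]
    rw [h0] at h2
    have h3 : ip (foot u) (0 : E) (TT F hD hB hdiam X u c) = 0 :=
      inner_zero_left (E := TangentSpace 𝓘(ℝ, E) (foot u)) (𝕜 := ℝ) _
    have h4 : 0 ≤ ip (foot u) (TT F hD hB hdiam X u c) (TT F hD hB hdiam X u c) :=
      real_inner_self_nonneg (F := TangentSpace 𝓘(ℝ, E) (foot u))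
    have h5 := mul_nonneg hθ.1 h4
    have h6 : (1 - θ) * ‖c‖ ^ 2 ≤ 0 := by linarith
    have h7 : ‖c‖ ^ 2 ≤ 0 := by
      by_contra hcon
      push Not at hcon
      nlinarith [mul_pos (by linarith : (0 : ℝ) < 1 - θ) hcon]
    have h8 : ‖c‖ = 0 := by nlinarith only [h7, norm_nonneg c]
    exact norm_eq_zero.1 h8

/-! ### the families `S0`, `S1` -/

theorem lfm_YS0 (hP : ∀ x y : M, dist x y = D → finrank ℝ (H775.Pl e D x y) = l + 1)
    (h : S2N.Fam F hD hB hdiam l X δ ε) (hW : S3E2.IsW F hD hB hdiam X δ ε W) :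
    LFm e D (P3 (Pm F D X δ ε)) (YS0 F D X W) :=
  (sfm_YS0 F (fun i => (h.df i).fld) hW.ls).lfm fun v θ hθ w hw hw0 => by
    obtain ⟨h1, h2, h3⟩ := (P3_iff v w).1 hw
    exact neg_YS0 hP h hW hθ v h1 h2 h3 hw0

/-- the end of the time changes -/
theorem YS1_one (F : Facts e) (hψ : Bmp ψ) (hD : 0 < D) {h₀ : ℝ} (hh : 0 < h₀) (hh4 : h₀ < D / 4)
    (W : ι → UT E M → E) (q : UT E M × Wp ι) :
    YS1 F D W ψ h₀ (q, 1) = YH F D ψ (S3V.wv W) (q, h₀) := by
  funext i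
  have h1 : ZS1 F D W ψ h₀ (q, 1) ((2 * i.val + 1) * (D / 4)) = Xh F D ψ (S3V.wv W) (q, h₀) i := by
    obtain ⟨v, w⟩ := q
    have h2 := ZC_eq_Xh F hψ hD hh hh4 W v w i
    rw [← h2]
    unfold ZS1 ti
    simp only [MM_one]
  unfold YS1 Yin YH
  rw [h1]

theorem lfm_YS1 (hP : ∀ x y : M, dist x y = D → finrank ℝ (H775.Pl e D x y) = l + 1)
    (h : S2N.Fam F hD hB hdiam l X δ ε) (hW : S3E2.IsW F hD hB hdiam X δ ε W) (hψ : Bmp ψ)
    {h₀ : ℝ} (hh : 0 < h₀) (hh4 : h₀ < D / 4)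
    (hn : ∀ v w, P3 (Pm F D X δ ε) v w = w → w ≠ 0 →
      Neg D (fun r => YH F D ψ (S3V.wv W) ((v, r • w), h₀))) :
    LFm e D (P3 (Pm F D X δ ε)) (YS1 F D W ψ h₀) :=
  (sfm_YS1 F hW.ls hψ hD hh (by linarith)).lfm fun v θ hθ w hw hw0 => by
    obtain ⟨h1, h2, h3⟩ := (P3_iff v w).1 hw
    rcases eq_or_lt_of_le hθ.2 with h4 | h4
    · subst h4
      have h5 : (fun r : ℝ => YS1 F D W ψ h₀ ((v, r • w), 1)) =
          fun r : ℝ => YH F D ψ (S3V.wv W) ((v, r • w), h₀) := by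
        funext r
        exact YS1_one F hψ hD hh hh4 W _
      rw [h5]
      exact hn v w hw hw0
    · exact neg_YS1 hP h hW hψ hh (by linarith) hθ.1 h4 v h1 h2 h3 hw0

/-- **the polygonal part of the chain** -/
theorem hm_chain (hP : ∀ x y : M, dist x y = D → finrank ℝ (H775.Pl e D x y) = l + 1)
    (h : S2N.Fam F hD hB hdiam l X δ ε) :
    Hm F hB X δ ε (fun q i => kY F D X
      (S3E2.Pc F D (S3E2.Wi F hD hB hdiam X δ ε) (Real.pi / (2 * D)))
      (S3E2.Ps F D (S3E2.Wi F hD hB hdiam X δ ε) (Real.pi / (2 * D))) (q, tm D i))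
      (fun q => v8 F (S3B1.Gc hP h (q.1, lamV D q.2))) := by
  obtain ⟨ψ, hψ⟩ := exists_bmp
  have hW := S3E2.isW_Wi hP h
  have hp := prjF_Pm h
  have hS := S3V.src_wv F hD hB hdiam hP h
  have hT := src_TT hP h
  obtain ⟨h₁, hh₁, hl, hn⟩ := exists_YH hψ hp hS
  obtain ⟨h₀, hh₀, hh₀'⟩ : ∃ h₀ : ℝ, 0 < h₀ ∧ h₀ < min h₁ (D / 4) := exists_between
    (lt_min hh₁ (by linarith))
  have hab : |h₀| ≤ h₁ := by
    rw [abs_of_pos hh₀]
    exact (hh₀'.trans_le (min_le_left _ _)).le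
  have hh4 : h₀ < D / 4 := hh₀'.trans_le (min_le_right _ _)
  have c1 := Hm.of_lfm (hB := hB) hD hdiam hp (lfm_YS0 hP h hW)
  have c2 := Hm.of_lfm (hB := hB) hD hdiam hp (lfm_YS1 hP h hW hψ hh₀ hh4 (hn h₀ hab))
  have c3 := hm_tail hP h hψ hS hT (fun θ hθ u c hc h0 => mx_inj hP h hθ u hc h0) (hl h₀ hab)
  have c1' := c1.congr one_pos (A' := fun q i => kY F D X
      (S3E2.Pc F D (S3E2.Wi F hD hB hdiam X δ ε) (Real.pi / (2 * D)))
      (S3E2.Ps F D (S3E2.Wi F hD hB hdiam X δ ε) (Real.pi / (2 * D))) (q, tm D i))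
    (B' := fun q => YS1 F D (S3E2.Wi F hD hB hdiam X δ ε) ψ h₀ (q, 0))
    (fun v w _ _ => funext fun i => YS0_zero hW.ls X (v, w) i)
    (fun v w _ _ => YS0_one hW.ls X ψ h₀ (v, w))
  have c2' := c2.congr one_pos (A' := fun q => YS1 F D (S3E2.Wi F hD hB hdiam X δ ε) ψ h₀ (q, 0))
    (B' := fun q => YH F D ψ (S3V.wv (S3E2.Wi F hD hB hdiam X δ ε)) (q, h₀))
    (fun v w _ _ => rfl) (fun v w _ _ => YS1_one F hψ hD hh₀ hh4 _ (v, w))
  exact (c1'.trans c2').trans c3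

/-- **the chain**: over the small ball of `ξ + E'` the pushed doubled loops are homotopic to the
closed family of octagons, through loops of length at most `4 D`, with margins off the zero
section -/
theorem chain (hP : ∀ x y : M, dist x y = D → finrank ℝ (H775.Pl e D x y) = l + 1)
    (h : S2N.Fam F hD hB hdiam l X δ ε) :
    ∃ r₀ : ℝ, 0 < r₀ ∧ ∀ r, r ≤ r₀ → ∃ (S : ℝ) (V : TB F D X δ ε r → ℝ≥0∞), Mg F D X δ ε r V ∧
      LHt (dTB F D X δ ε r) (dM E M) S V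
        (kT X (S3E2.Pc F D (S3E2.Wi F hD hB hdiam X δ ε) (Real.pi / (2 * D)))
          (S3E2.Ps F D (S3E2.Wi F hD hB hdiam X δ ε) (Real.pi / (2 * D))))
        (fun p => pl (WD3.geoM F hB) (v8 F (S3B1.Gc hP h (p.v, lamV D p.w)))) := by
  obtain ⟨ε₁, hPh⟩ := S3E2.exists_phF_fam hP h
  exact chain_of h hPh (hm_chain hP h)

end

end Vale.Agent.P231.S3B5
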