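import Vale.Agent.P231.S3B5.TB

/-!
# P231, stage 3, block S3-B, chain: the pushed doubled loops and their octagons
-/

set_option maxSynthPendingDepth 3
set_option linter.unusedSectionVars false
set_option linter.unusedVariables false

open Bundle Manifold Set Filter Module MeasureTheory
open scoped ContDiff Manifold Topology ENNReal

namespace Vale.Agent.P231.S3B5

noncomputable section

open Vale.Agent.P234 Vale.Agent.P231 Vale.Agent.P231.Fm Vale.Agent.P231.W Vale.Agent.P231.WR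
open Vale.Agent.P231.WF Vale.Agent.P231.H766 Vale.Agent.P231.S2N Vale.Agent.P231.S3S
open Vale.Agent.P231.S3Y Vale.Agent.P231.S3B1 Vale.Agent.P231.S3A

variable {E : Type*} [NormedAddCommGroup E] [NormedSpace ℝ E]
  {M : Type*} [MetricSpace M] [ChartedSpace E M]
  [RiemannianBundle (fun x : M => TangentSpace 𝓘(ℝ, E) x)]
  {e : ∀ x : M, TangentSpace 𝓘(ℝ, E) x → M}
  [FiniteDimensional ℝ E] [IsManifold 𝓘(ℝ, E) ∞ M]
  [IsContMDiffRiemannianBundle 𝓘(ℝ, E) ∞ E (fun x : M => TangentSpace 𝓘(ℝ, E) x)]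
  [CompactSpace M] [ConnectedSpace M] [IsRiemannianManifold 𝓘(ℝ, E) M]

variable {ι : Type} [Fintype ι] [DecidableEq ι]

variable {F : Facts e} {D : ℝ} {X δ Pc Ps : ι → UT E M → E} {ε r : ℝ}

/-! ### the zero section -/

theorem rW_zero' (t : ℝ) : rW D (0 : Wp ι) t = 0 := by
  unfold rW rx ry
  simp

theorem kY_zero (F : Facts e) (v : UT E M) (t : ℝ) :
    kY F D X Pc Ps ((v, (0 : Wp ι)), t) = gam e (foot v) (vec' v) t := by
  unfold kY
  simp only [rW_zero']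
  have h1 : gY e X Pc Ps (phi F (v, t)) ((0 : EuclideanSpace ℝ ι), (0, 0)) =
      linX e X (phi F (v, t)) 0 := gY_zero _ _
  refine h1.trans ?_
  unfold linX
  rw [XX_zero']
  exact F.isExp.map_zero _

theorem sY_zero (F : Facts e) (v : UT E M) (t : ℝ) :
    sY F D X Pc Ps ((v, (0 : Wp ι)), t) = 1 := by
  unfold sY
  have h1 : (fun t => kY F D X Pc Ps ((v, (0 : Wp ι)), t)) = gam e (foot v) (vec' v) :=
    funext fun t => kY_zero F v t
  simp only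
  rw [h1, kY_zero F v t]
  have h2 : (WC.vl (gam e (foot v) (vec' v)) t : E) = vel e (foot v) (vec' v) t :=
    mfderiv_gam F.isExp _ _ _
  rw [h2, nm_vel F, nm_vec', one_pow]

theorem eY_zero (F : Facts e) (v : UT E M) :
    eY F D X Pc Ps (v, (0 : Wp ι)) = 4 * D := by
  unfold eY
  simp only [sY_zero, intervalIntegral.integral_const, smul_eq_mul, mul_one, sub_zero]

theorem Vk_le {ε₁ : ℝ} (hPh : PhF F D X δ ε Pc Ps ε₁) (hr : r ≤ ε₁) (p : TB F D X δ ε r) :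
    Vk X Pc Ps p ≤ ENNReal.ofReal (4 * D) := by
  refine ENNReal.ofReal_le_ofReal ?_
  by_cases hp : p.w = 0
  · rw [hp, eY_zero]
    linarith
  · have := eY_lt hPh hr p hp
    linarith

theorem exists_Vk_lt {l : ℕ} {hD : 0 < D} {hB : InjGE e D} {hdiam : ∀ p q : M, dist p q ≤ D}
    (h : S2N.Fam F hD hB hdiam l X δ ε) {ε₁ : ℝ} (hPh : PhF F D X δ ε Pc Ps ε₁) (hr : r ≤ ε₁)
    {s : ℝ} (hs : 0 < s) : ∃ m, m < 4 * D ∧ ∀ p : TB F D X δ ε r, s ≤ ‖p.w‖ →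
      Vk X Pc Ps p ≤ ENNReal.ofReal m := by
  let t1 := WF.topUT (E := E) (M := M)
  have hX : ∀ i, Fld (X i) := fun i => (h.df i).fld
  have h1 : Continuous (eY F D X Pc Ps) := S3N.cont_UT (map_eY F hX hPh.fc hPh.fs)
  obtain ⟨m, hm, hm2⟩ := exists_lt_of_compact (isCompact_KT h s r) h1.continuousOn
    (c := 4 * D) (by
      rintro ⟨v, w⟩ ⟨⟨k1, k2, k3⟩, k4, k5⟩
      refine eY_lt hPh hr ⟨v, w, k1, k2, k3, k5⟩ fun h0 => ?_
      simp only at k4 h0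
      rw [h0, norm_zero] at k4
      exact absurd k4 (not_le.2 hs))
  refine ⟨(m + 4 * D) / 2, by linarith, fun p hp => ENNReal.ofReal_le_ofReal ?_⟩
  have h2 := hm2 (p.v, p.w) ⟨⟨p.pa, p.px, p.py⟩, hp, p.nw⟩
  linarith

/-! ### the speed near the zero section -/

theorem norm_rW_le (w : Wp ι) (t : ℝ) : ‖rW D w t‖ ≤ 2 * ‖w‖ := by
  have h2 : ‖w.2.1‖ ≤ ‖w‖ := (norm_fst_le w.2).trans (norm_snd_le w)
  have h3 : ‖w.2.2‖ ≤ ‖w‖ := (norm_snd_le w.2).trans (norm_snd_le w)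
  have h4 := rx_le (om D * t) (x := w.2.1) (y := w.2.2) (c := 2 * ‖w‖) (by positivity) (by
    nlinarith [norm_nonneg w.2.1, norm_nonneg w.2.2, norm_nonneg w])
  unfold rW
  rw [Prod.norm_def, Prod.norm_def]
  refine max_le ?_ (max_le h4.1 h4.2)
  have := norm_fst_le w
  simp only
  linarith [norm_nonneg w]

theorem exists_sp_small (F : Facts e) (D : ℝ) (hX : ∀ i, Fld (X i)) (hc : ∀ i, Fld (Pc i))
    (hs : ∀ i, Fld (Ps i)) : ∃ ρ, 0 < ρ ∧ ∀ (v : UT E M) (w : Wp ι), ‖w‖ ≤ ρ → ∀ t,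
      S3U.sp E (fun t => kY F D X Pc Ps ((v, w), t)) t ≤ 3 / 2 := by
  let t1 := WF.topUT (E := E) (M := M)
  have h1 : ((dUT E M).prod (Dif.lin (ℝ × Wp ι))).Map (Dif.lin ℝ)
      (fun q => sY F D X Pc Ps ((q.1, q.2.2), 0)) := by
    intro E' _ _ _ u z hu
    have h2 : Sm (fun s => (u s).2) z := hu.2
    exact map_sY (D := D) F hX hc hs (u := fun s => (((u s).1, (u s).2.2), (0 : ℝ)))
      ⟨⟨hu.1, Sm.comp (f := fun w : ℝ × Wp ι => w.2) (Sm.of_contDiff contDiff_snd _) h2⟩,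
        Sm.of_contDiff contDiff_const z⟩
  have h0 := S3N.cont_UT h1
  obtain ⟨ρ, hρ, h2⟩ := S3N.unif_UT (V := ℝ) (V' := Wp ι) h0 0 (η := 1) one_pos
  refine ⟨ρ / 2, by positivity, fun v w hw t => ?_⟩
  have h3 : S3U.sp E (fun t => kY F D X Pc Ps ((v, w), t)) t ^ 2 =
      sY F D X Pc Ps ((v, w), t) := rfl
  refine le_of_sq_le_sq (?_ : _ ^ 2 ≤ (3 / 2 : ℝ) ^ 2) (by norm_num)
  rw [h3, ← sY_add F hX hc hs]
  have h4 := h2 (phi F (v, t)) 0 (by simp) (rW D w t) ((norm_rW_le w t).trans (by linarith))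
  simp only at h4
  rw [sY_zero, Real.norm_eq_abs] at h4
  have h5 := (abs_le.1 h4).2
  norm_num
  linarith

/-! ### the family of the doubled loops and its octagons -/

theorem dist_kT {ρ : ℝ} (hD : 0 < D) (hX : ∀ i, Fld (X i)) (hc : ∀ i, Fld (Pc i))
    (hs : ∀ i, Fld (Ps i)) (hsp : ∀ (v : UT E M) (w : Wp ι), ‖w‖ ≤ ρ → ∀ t,
      S3U.sp E (fun t => kY F D X Pc Ps ((v, w), t)) t ≤ 3 / 2) (hr : r ≤ ρ)
    (p : TB F D X δ ε r) (s t : ℝ) :
    dist (kT X Pc Ps p s) (kT X Pc Ps p t) ≤ 6 * D * |s - t| := by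
  have h1 := dist_le_of_sp (cmd_kY (D := D) F hX hc hs p.v p.w) (hsp p.v p.w (p.nw.trans hr))
    (4 * D * s) (4 * D * t)
  rw [← mul_sub, abs_mul, abs_of_nonneg (by positivity : (0 : ℝ) ≤ 4 * D)] at h1
  refine h1.trans (le_of_eq ?_)
  ring

/-- the family of the doubled loops -/
theorem lf_kT {ρ : ℝ} (hD : 0 < D) (hB : InjGE e D) (hdiam : ∀ p q : M, dist p q ≤ D)
    (hX : ∀ i, Fld (X i)) (hc : ∀ i, Fld (Pc i))
    (hs : ∀ i, Fld (Ps i)) (hsp : ∀ (v : UT E M) (w : Wp ι), ‖w‖ ≤ ρ → ∀ t,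
      S3U.sp E (fun t => kY F D X Pc Ps ((v, w), t)) t ≤ 3 / 2) (hr : r ≤ ρ) :
    LF (dTB F D X δ ε r) (dM E M) (6 * D) (Vk X Pc Ps) (kT X Pc Ps) where
  smooth := map_kT hX hc hs
  per := kT_per hD hB hdiam
  lip := dist_kT hD hX hc hs hsp hr
  var := var_kT hD hX hc hs

/-- the vertices of the octagons, at the times `(2 i + 1) D / 4` -/
def tm (D : ℝ) (i : ZMod 8) : ℝ := (2 * (i.val : ℝ) + 1) * (D / 4)

/-- the octagons of the doubled loops -/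
def ok (X Pc Ps : ι → UT E M → E) (p : TB F D X δ ε r) (i : ZMod 8) : M :=
  kY F D X Pc Ps ((p.v, p.w), tm D i)

theorem vx_kT (p : TB F D X δ ε r) : vx (kT X Pc Ps) 8 (1 / 16) p = ok X Pc Ps p := by
  funext i
  unfold vx kT ok tm
  congr 2
  push_cast
  ring

theorem lht_ok {ρ : ℝ} (hD : 0 < D) (hB : InjGE e D) (hdiam : ∀ p q : M, dist p q ≤ D)
    (hX : ∀ i, Fld (X i)) (hc : ∀ i, Fld (Pc i))
    (hs : ∀ i, Fld (Ps i)) (hsp : ∀ (v : UT E M) (w : Wp ι), ‖w‖ ≤ ρ → ∀ t,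
      S3U.sp E (fun t => kY F D X Pc Ps ((v, w), t)) t ≤ 3 / 2) (hr : r ≤ ρ) :
    LHt (dTB F D X δ ε r) (dM E M) (2 * lstp * (6 * D)) (Vk X Pc Ps) (kT X Pc Ps)
      (fun p => pl (WD3.geoM F hB) (ok X Pc Ps p)) := by
  have h1 := ar (m := 8) (o := 1 / 16) (WD3.geoM F hB)
    (lf_kT (δ := δ) (ε := ε) hD hB hdiam hX hc hs hsp hr)
    (by positivity) (fun p i x hx => by
      unfold arc
      refine (dist_kT hD hX hc hs hsp hr p _ _).trans_lt ?_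
      have h2 : |(1 / 16 : ℝ) + ((i : ℝ) + 0) / ((8 : ℕ) : ℝ) -
          (1 / 16 + ((i : ℝ) + x) / ((8 : ℕ) : ℝ))| = x / 8 := by
        rw [abs_sub_comm, show (1 / 16 : ℝ) + ((i : ℝ) + x) / ((8 : ℕ) : ℝ) -
          (1 / 16 + ((i : ℝ) + 0) / ((8 : ℕ) : ℝ)) = x / 8 by push_cast; ring, abs_of_nonneg]
        exact div_nonneg hx.1 (by norm_num)
      rw [h2]
      nlinarith [hx.2])
  simpa only [vx_kT] using h1

end

end Vale.Agent.P231.S3B5
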