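import Vale.Agent.P231.S3B5.Rel
import Vale.Agent.P231.S3B1.Lnk

/-!
# P231, stage 3, block S3-B, chain: the last family is the closed family near its centre
-/

set_option maxSynthPendingDepth 3
set_option linter.unusedSectionVars false
set_option linter.unusedVariables false

open Bundle Manifold Set Filter Module MeasureTheory
open scoped ContDiff Manifold Topology ENNReal

namespace Vale.Agent.P231.S3B5

noncomputable section

open Vale.Agent.P234 Vale.Agent.P231 Vale.Agent.P231.Fm Vale.Agent.P231.W Vale.Agent.P231.WR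
open Vale.Agent.P231.WF Vale.Agent.P231.H766 Vale.Agent.P231.S2N Vale.Agent.P231.S3S
open Vale.Agent.P231.S3Y Vale.Agent.P231.S3B1 Vale.Agent.P231.S3A Vale.Agent.P231.S3B3

section Lam

variable {V : Type*} [NormedAddCommGroup V] [NormedSpace ℝ V]

/-- the linear change of parameters from `ξ + E'` to the triples of corner coefficients -/
def lamV (D : ℝ) (w : V × (V × V)) : V × (V × V) :=
  ((2 * D) • w.1 + kap' D • (w.2.1 - w.2.2),
    (-((2 * kap' D) • w.2.1), (2 * D) • w.1 + kap' D • (w.2.1 + w.2.2)))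

theorem contDiff_lamV (D : ℝ) : ContDiff ℝ ∞ (lamV (V := V) D) := by
  have a1 : ContDiff ℝ ∞ (fun w : V × (V × V) => w.1) := contDiff_fst
  have a2 : ContDiff ℝ ∞ (fun w : V × (V × V) => w.2.1) := contDiff_fst.comp contDiff_snd
  have a3 : ContDiff ℝ ∞ (fun w : V × (V × V) => w.2.2) := contDiff_snd.comp contDiff_snd
  have b1 : ContDiff ℝ ∞ (fun w : V × (V × V) => (2 * D) • w.1) :=
    (contDiff_const (c := 2 * D)).smul a1
  refine (b1.add ((contDiff_const (c := kap' D)).smul (a2.sub a3))).prodMk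
    ((((contDiff_const (c := 2 * kap' D)).smul a2).neg).prodMk
      (b1.add ((contDiff_const (c := kap' D)).smul (a2.add a3))))

theorem norm_lamV_le {D : ℝ} (hD : 0 < D) (w : V × (V × V)) :
    ‖lamV D w‖ ≤ (2 * D + 2 * kap' D) * ‖w‖ := by
  have hk := kap'_pos hD
  have h1 : ‖w.1‖ ≤ ‖w‖ := norm_fst_le w
  have h2 : ‖w.2.1‖ ≤ ‖w‖ := (norm_fst_le w.2).trans (norm_snd_le w)
  have h3 : ‖w.2.2‖ ≤ ‖w‖ := (norm_snd_le w.2).trans (norm_snd_le w)
  have k1 : ‖(2 * D) • w.1‖ ≤ 2 * D * ‖w‖ := by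
    rw [norm_smul, Real.norm_of_nonneg (by positivity)]
    exact mul_le_mul_of_nonneg_left h1 (by positivity)
  have k2 : ‖kap' D • (w.2.1 - w.2.2)‖ ≤ kap' D * (‖w‖ + ‖w‖) := by
    rw [norm_smul, Real.norm_of_nonneg hk.le]
    exact mul_le_mul_of_nonneg_left ((norm_sub_le _ _).trans (add_le_add h2 h3)) hk.le
  have k3 : ‖kap' D • (w.2.1 + w.2.2)‖ ≤ kap' D * (‖w‖ + ‖w‖) := by
    rw [norm_smul, Real.norm_of_nonneg hk.le]
    exact mul_le_mul_of_nonneg_left ((norm_add_le _ _).trans (add_le_add h2 h3)) hk.le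
  have k4 : ‖-((2 * kap' D) • w.2.1)‖ ≤ 2 * kap' D * ‖w‖ := by
    rw [norm_neg, norm_smul, Real.norm_of_nonneg (by positivity)]
    exact mul_le_mul_of_nonneg_left h2 (by positivity)
  have hw := norm_nonneg w
  have hDw : 0 ≤ D * ‖w‖ := by positivity
  unfold lamV
  rw [Prod.norm_def, Prod.norm_def]
  refine max_le ?_ (max_le ?_ ?_)
  · exact (norm_add_le _ _).trans ((add_le_add k1 k2).trans (le_of_eq (by ring)))
  · exact k4.trans (by nlinarith)
  · exact (norm_add_le _ _).trans ((add_le_add k1 k3).trans (le_of_eq (by ring)))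

end Lam

variable {E : Type*} [NormedAddCommGroup E] [NormedSpace ℝ E]
  {M : Type*} [MetricSpace M] [ChartedSpace E M]
  [RiemannianBundle (fun x : M => TangentSpace 𝓘(ℝ, E) x)]
  {e : ∀ x : M, TangentSpace 𝓘(ℝ, E) x → M}
  [FiniteDimensional ℝ E] [IsManifold 𝓘(ℝ, E) ∞ M]
  [IsContMDiffRiemannianBundle 𝓘(ℝ, E) ∞ E (fun x : M => TangentSpace 𝓘(ℝ, E) x)]
  [CompactSpace M] [ConnectedSpace M] [IsRiemannianManifold 𝓘(ℝ, E) M]

variable {ι : Type} [Fintype ι] [DecidableEq ι]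

variable {F : Facts e} {D : ℝ} {hD : 0 < D} {hB : InjGE e D} {hdiam : ∀ p q : M, dist p q ≤ D}
  {l : ℕ} {X δ Pc Ps : ι → UT E M → E} {ε r : ℝ}

theorem lam_eq (w : Wp ι) (j : Fin 4) : lam D w j =
    (![0, (lamV D w).1, (lamV D w).2.1, (lamV D w).2.2] : Fin 4 → EuclideanSpace ℝ ι) j := rfl

/-- the last corner fields -/
def kE (F : Facts e) (hD : 0 < D) (hB : InjGE e D) (hdiam : ∀ p q : M, dist p q ≤ D)
    (X : ι → UT E M → E) (p : (UT E M × Wp ι) × ℝ) (j : Fin 4) : E :=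
  Th0 F hD hB hdiam (XX X (Csl D p j)) (vj F D p.1.1 j)

/-- **the end of the chain** -/
theorem exists_end (hP : ∀ x y : M, dist x y = D → finrank ℝ (H775.Pl e D x y) = l + 1)
    (h : S2N.Fam F hD hB hdiam l X δ ε) : ∃ R : ℝ, 0 < R ∧ ∀ v w, Fx F D X δ ε v w → ‖w‖ ≤ R →
      YU F D (kE F hD hB hdiam X) ((v, w), 1) = v8 F (S3B1.Gc hP h (v, lamV D w)) := by
  have hk := kap'_pos hD
  refine ⟨1 / (3 * (2 * D + 2 * kap' D)), by positivity, fun v w hw hwR => ?_⟩
  obtain ⟨f1, f2, f3⟩ := hw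
  have hn : ‖lamV D w‖ ≤ 1 / 3 := by
    refine (norm_lamV_le hD w).trans ?_
    calc (2 * D + 2 * kap' D) * ‖w‖ ≤ (2 * D + 2 * kap' D) * (1 / (3 * (2 * D + 2 * kap' D))) :=
          mul_le_mul_of_nonneg_left hwR (by positivity)
      _ = 1 / 3 := by field_simp
  have g1 : Pm F D X δ ε v (lamV D w).1 = (lamV D w).1 := by
    unfold lamV
    simp only
    rw [map_add, map_smul, map_smul, map_sub, f1, f2, f3]
  have g2 : Pm F D X δ ε v (lamV D w).2.1 = (lamV D w).2.1 := by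
    unfold lamV
    simp only
    rw [map_neg, map_smul, f2]
  have g3 : Pm F D X δ ε v (lamV D w).2.2 = (lamV D w).2.2 := by
    unfold lamV
    simp only
    rw [map_add, map_smul, map_smul, map_add, f1, f2, f3]
  have n1 : ‖(lamV D w).1‖ ≤ 1 / 3 := (norm_fst_le _).trans hn
  have n2 : ‖(lamV D w).2.1‖ ≤ 1 / 3 := (norm_fst_le _).trans ((norm_snd_le _).trans hn)
  have n3 : ‖(lamV D w).2.2‖ ≤ 1 / 3 := (norm_snd_le _).trans ((norm_snd_le _).trans hn)
  have sq : ∀ z : EuclideanSpace ℝ ι, ‖z‖ ≤ 1 / 3 → ‖z‖ ^ 2 ≤ 1 / 6 := fun z hz => by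
    have := pow_le_pow_left₀ (norm_nonneg z) hz 2
    norm_num at this ⊢
    linarith
  have e1 := v8_Gc_near hP h (v := v) (c := lamV D w) (cc := lam D w) (by rw [g1]; exact sq _ n1)
    (by rw [g2]; exact sq _ n2) (by rw [g3]; exact sq _ n3) rfl g1.symm g2.symm g3.symm
  rw [e1]
  unfold YU uk kE
  simp only [Csl_one]

end

end Vale.Agent.P231.S3B5
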