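import Vale.Agent.P231.S3B1.Ar

/-!
# P231, stage 3, block S3-B, chain: homotopies of closed polygons as homotopies of loops
-/

set_option linter.unusedSectionVars false
set_option linter.unusedVariables false

open Set Filter Topology Module
open scoped ContDiff ENNReal

namespace Vale.Agent.P231.S3B5

open Vale.Agent.P231.Fm Vale.Agent.P231.H766 Vale.Agent.P231.S3A Vale.Agent.P231.S3L
open Vale.Agent.P231.S3B1

section Gen

variable {Y : Type*} {DY : Dif Y} {M : Type*} [MetricSpace M] {DM : Dif M} {D : ℝ} (g : Geo DM D)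
  {m : ℕ} [NeZero m]

/-- a smooth family of polygons is a smooth family of closed curves -/
theorem lf_pl {X : Y → ZMod m → M} (hX : DY.Map (dPi DM m) X) {ρ : ℝ} (hρ : ρ < D)
    (hx : ∀ y i, sd (X y) i ≤ ρ) {V : Y → ℝ≥0∞} (hV : ∀ y, ENNReal.ofReal (Pe (X y)) ≤ V y) :
    LF DY DM (m * lstp * ρ) V fun y => pl g (X y) where
  smooth {E} _ _ _ {u x} hu := at_pl g (z := fun y => X (u y).1) (τ := fun y => (u y).2)
    (hX hu.1) hu.2 fun i => (hx _ i).trans_lt hρ
  per y t := pl_per g _ t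
  lip y s t := by
    rcases le_total s t with h | h
    · rw [abs_sub_comm, abs_of_nonneg (sub_nonneg.2 h)]
      exact dist_pl g hρ (hx y) h
    · rw [abs_of_nonneg (sub_nonneg.2 h), dist_comm]
      exact dist_pl g hρ (hx y) h
  var y := (var_pl g fun i => (hx y i).trans_lt hρ).trans (hV y)

/-- a smooth homotopy of polygons is a smooth homotopy of families of closed curves -/
theorem lht_pl {X : Y × ℝ → ZMod m → M} (hX : (DY.prod (Dif.lin ℝ)).Map (dPi DM m) X) {ρ : ℝ}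
    (hρ : ρ < D) (hx : ∀ y, ∀ θ ∈ Icc (0 : ℝ) 1, ∀ i, sd (X (y, θ)) i ≤ ρ) {V : Y → ℝ≥0∞}
    (hV : ∀ y, ∀ θ ∈ Icc (0 : ℝ) 1, ENNReal.ofReal (Pe (X (y, θ))) ≤ V y) :
    LHt DY DM (m * lstp * ρ) V (fun y => pl g (X (y, 0))) fun y => pl g (X (y, 1)) := by
  have hm : (DY.prod (Dif.lin ℝ)).Map (dPi DM m) fun p : Y × ℝ => X (p.1, stp p.2) := by
    intro E _ _ _ u x hu
    exact hX (u := fun y => ((u y).1, stp (u y).2))
      ⟨hu.1, (Sm.of_contDiff stp_contDiff _).comp hu.2⟩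
  refine ⟨fun p => pl g (X (p.1, stp p.2)),
    lf_pl g hm hρ (fun p i => hx p.1 _ (stp_mem p.2) i) (V := fun p => V p.1)
      (fun p => hV p.1 _ (stp_mem p.2)), fun y s t hs => ?_, fun y s t hs => ?_⟩
  · change pl g (X (y, stp s)) t = _
    rw [stp_of_le (by linarith)]
  · change pl g (X (y, stp s)) t = _
    rw [stp_of_ge (by linarith)]

end Gen

/-! ### octagons of small energy -/

section Eight

variable {M : Type*} [MetricSpace M]

/-- the bound for the perimeter of octagons of energy at most `2 D² - c x` -/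
noncomputable def Ve (D c x : ℝ) : ℝ≥0∞ := ENNReal.ofReal (Real.sqrt (16 * D ^ 2 - 8 * c * x))

theorem Pe_le_Ve {z : ZMod 8 → M} {D c x : ℝ} (h : En z ≤ 2 * D ^ 2 - c * x) :
    ENNReal.ofReal (Pe z) ≤ Ve D c x := by
  refine ENNReal.ofReal_le_ofReal ?_
  refine Real.le_sqrt_of_sq_le ?_
  have h1 := Pe_sq_le z
  push_cast at h1
  linarith

theorem Ve_anti {D c x x' : ℝ} (hc : 0 ≤ c) (hx : x ≤ x') : Ve D c x' ≤ Ve D c x := by
  refine ENNReal.ofReal_le_ofReal (Real.sqrt_le_sqrt ?_)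
  have := mul_le_mul_of_nonneg_left hx hc
  linarith

theorem Ve_mono {D c c' x : ℝ} (hc : c' ≤ c) (hx : 0 ≤ x) : Ve D c x ≤ Ve D c' x := by
  refine ENNReal.ofReal_le_ofReal (Real.sqrt_le_sqrt ?_)
  have := mul_le_mul_of_nonneg_right hc hx
  linarith

theorem Ve_zero {D c : ℝ} (hD : 0 ≤ D) : Ve D c 0 = ENNReal.ofReal (4 * D) := by
  rw [Ve, show 16 * D ^ 2 - 8 * c * 0 = (4 * D) ^ 2 by ring, Real.sqrt_sq (by positivity)]

theorem Ve_le {D c x : ℝ} (hD : 0 ≤ D) (hc : 0 ≤ c) (hx : 0 ≤ x) :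
    Ve D c x ≤ ENNReal.ofReal (4 * D) := by
  rw [← Ve_zero (c := c) hD]
  exact Ve_anti hc hx

theorem Ve_lt {D c x : ℝ} (hD : 0 < D) (hc : 0 < c) (hx : 0 < x) :
    Real.sqrt (16 * D ^ 2 - 8 * c * x) < 4 * D := by
  rw [Real.sqrt_lt' (by positivity)]
  have := mul_pos hc hx
  nlinarith

end Eight

end Vale.Agent.P231.S3B5
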