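import Vale.Agent.P231.S3B5.C0

/-!
# P231, stage 3, block S3-B, chain: families of octagons of small energy
-/

set_option maxSynthPendingDepth 3
set_option linter.unusedSectionVars false
set_option linter.unusedVariables false

open Bundle Manifold Set Filter Module MeasureTheory
open scoped ContDiff Manifold Topology ENNReal

namespace Vale.Agent.P231.S3B5

noncomputable section

open Vale.Agent.P234 Vale.Agent.P231 Vale.Agent.P231.Fm Vale.Agent.P231.W Vale.Agent.P231.WR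
open Vale.Agent.P231.WF Vale.Agent.P231.H766 Vale.Agent.P231.S2N Vale.Agent.P231.S3S
open Vale.Agent.P231.S3Y Vale.Agent.P231.S3B1 Vale.Agent.P231.S3A

section Gen

variable {Y : Type*} {DY : Dif Y} {M : Type*} [MetricSpace M] {DM : Dif M}

/-- composition of homotopies with different bounds -/
theorem trans_max {S S' : ℝ} {V V' : Y → ℝ≥0∞} {c c' c'' : Y → ℝ → M}
    (h : LHt DY DM S V c c') (h' : LHt DY DM S' V' c' c'') :
    LHt DY DM (max S S') (fun y => max (V y) (V' y)) c c'' :=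
  (h.mono (le_max_left _ _) fun y => le_max_left _ _).trans
    (h'.mono (le_max_right _ _) fun y => le_max_right _ _)

/-- change of the names of the ends -/
theorem LHt.congr' {S : ℝ} {V : Y → ℝ≥0∞} {c c' d d' : Y → ℝ → M} (h : LHt DY DM S V c c')
    (h0 : c = d) (h1 : c' = d') : LHt DY DM S V d d' := by
  subst h0 h1
  exact h

end Gen

variable {E : Type*} [NormedAddCommGroup E] [NormedSpace ℝ E]
  {M : Type*} [MetricSpace M] [ChartedSpace E M]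
  [RiemannianBundle (fun x : M => TangentSpace 𝓘(ℝ, E) x)]
  {e : ∀ x : M, TangentSpace 𝓘(ℝ, E) x → M}
  [FiniteDimensional ℝ E] [IsManifold 𝓘(ℝ, E) ∞ M]
  [IsContMDiffRiemannianBundle 𝓘(ℝ, E) ∞ E (fun x : M => TangentSpace 𝓘(ℝ, E) x)]
  [CompactSpace M] [ConnectedSpace M] [IsRiemannianManifold 𝓘(ℝ, E) M]

variable {ι : Type} [Fintype ι] [DecidableEq ι]

/-- the parameters in the fibre of `ξ + E'` over `v` -/
def Fx (F : Facts e) (D : ℝ) (X δ : ι → UT E M → E) (ε : ℝ) (v : UT E M) (w : Wp ι) : Prop :=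
  Pm F D X δ ε v w.1 = w.1 ∧ Pm F D X δ ε v w.2.1 = w.2.1 ∧ Pm F D X δ ε v w.2.2 = w.2.2

/-- a smooth homotopy of families of octagons, with short sides and energies at most
`2 D² - c ‖w‖²` near the zero section -/
structure PF (F : Facts e) (D : ℝ) (X δ : ι → UT E M → E) (ε : ℝ)
    (H : (UT E M × Wp ι) × ℝ → ZMod 8 → M) (r ρ c : ℝ) : Prop where
  map : (((dUT E M).prod (Dif.lin (Wp ι))).prod (Dif.lin ℝ)).Map (dPi (dM E M) 8) H
  side : ∀ v w, Fx F D X δ ε v w → ‖w‖ ≤ r → ∀ θ ∈ Icc (0 : ℝ) 1, ∀ i, sd (H ((v, w), θ)) i ≤ ρ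
  en : ∀ v w, Fx F D X δ ε v w → ‖w‖ ≤ r → ∀ θ ∈ Icc (0 : ℝ) 1,
    En (H ((v, w), θ)) ≤ 2 * D ^ 2 - c * ‖w‖ ^ 2

variable {F : Facts e} {D : ℝ} {X δ Pc Ps : ι → UT E M → E} {ε r : ℝ}

theorem TB.fx (p : TB F D X δ ε r) : Fx F D X δ ε p.v p.w := ⟨p.pa, p.px, p.py⟩

/-- a smooth homotopy of families of octagons gives a homotopy of families of loops over `TB` -/
theorem PF.lht (hB : InjGE e D) {H : (UT E M × Wp ι) × ℝ → ZMod 8 → M} {R ρ c : ℝ}
    (h : PF F D X δ ε H R ρ c) (hρ : ρ < D) (hr : r ≤ R) :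
    LHt (dTB F D X δ ε r) (dM E M) ((8 : ℕ) * lstp * ρ) (fun p => Ve D c (‖p.w‖ ^ 2))
      (fun p => pl (WD3.geoM F hB) (H ((p.v, p.w), 0)))
      (fun p => pl (WD3.geoM F hB) (H ((p.v, p.w), 1))) :=
  lht_pl (DY := dTB F D X δ ε r) (WD3.geoM F hB) (m := 8)
    (X := fun q : TB F D X δ ε r × ℝ => H ((q.1.v, q.1.w), q.2))
    (fun {E'} _ _ _ {u x} hu => h.map (u := fun y => (((u y).1.v, (u y).1.w), (u y).2))
      ⟨⟨hu.1.1, hu.1.2⟩, hu.2⟩) hρ
    (fun p θ hθ i => h.side p.v p.w p.fx (p.nw.trans hr) θ hθ i)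
    (fun p θ hθ => Pe_le_Ve (h.en p.v p.w p.fx (p.nw.trans hr) θ hθ))

/-- a bound for the variation over `TB`: at most `4 D`, with margins off the zero section -/
def Mg (F : Facts e) (D : ℝ) (X δ : ι → UT E M → E) (ε r : ℝ) (V : TB F D X δ ε r → ℝ≥0∞) : Prop :=
  (∀ p, V p ≤ ENNReal.ofReal (4 * D)) ∧ ∀ s, 0 < s → ∃ m, m < 4 * D ∧
    ∀ p : TB F D X δ ε r, s ≤ ‖p.w‖ → V p ≤ ENNReal.ofReal m

theorem mg_max {V V' : TB F D X δ ε r → ℝ≥0∞} (h : Mg F D X δ ε r V) (h' : Mg F D X δ ε r V') :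
    Mg F D X δ ε r fun p => max (V p) (V' p) := by
  refine ⟨fun p => max_le (h.1 p) (h'.1 p), fun s hs => ?_⟩
  obtain ⟨m, hm, hm2⟩ := h.2 s hs
  obtain ⟨m', hm', hm2'⟩ := h'.2 s hs
  refine ⟨max m m', max_lt hm hm', fun p hp => max_le ((hm2 p hp).trans ?_) ((hm2' p hp).trans ?_)⟩
  · exact ENNReal.ofReal_le_ofReal (le_max_left _ _)
  · exact ENNReal.ofReal_le_ofReal (le_max_right _ _)

theorem mg_Vk {l : ℕ} {hD : 0 < D} {hB : InjGE e D} {hdiam : ∀ p q : M, dist p q ≤ D}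
    (h : S2N.Fam F hD hB hdiam l X δ ε) {ε₁ : ℝ} (hPh : PhF F D X δ ε Pc Ps ε₁) (hr : r ≤ ε₁) :
    Mg F D X δ ε r (Vk X Pc Ps) :=
  ⟨Vk_le hPh hr, fun s hs => exists_Vk_lt h hPh hr hs⟩

theorem mg_Ve (hD : 0 < D) {c : ℝ} (hc : 0 < c) :
    Mg F D X δ ε r fun p => Ve D c (‖p.w‖ ^ 2) := by
  refine ⟨fun p => Ve_le hD.le hc.le (sq_nonneg _), fun s hs =>
    ⟨Real.sqrt (16 * D ^ 2 - 8 * c * s ^ 2), Ve_lt hD hc (by positivity), fun p hp => ?_⟩⟩
  exact Ve_anti hc.le (pow_le_pow_left₀ hs.le hp 2)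

end

end Vale.Agent.P231.S3B5
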