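import Vale.Agent.P231.S3B5.PF
import Vale.Agent.P231.S3B3.Slice

/-!
# P231, stage 3, block S3-B, chain: homotopies through octagons of small energy
-/

set_option maxSynthPendingDepth 3
set_option linter.unusedSectionVars false
set_option linter.unusedVariables false

open Bundle Manifold Set Filter Module MeasureTheory
open scoped ContDiff Manifold Topology ENNReal

namespace Vale.Agent.P231.S3B5

noncomputable section

open Vale.Agent.P234 Vale.Agent.P231 Vale.Agent.P231.Fm Vale.Agent.P231.W Vale.Agent.P231.WR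
open Vale.Agent.P231.WF Vale.Agent.P231.H766 Vale.Agent.P231.S2N Vale.Agent.P231.S3S
open Vale.Agent.P231.S3Y Vale.Agent.P231.S3B1 Vale.Agent.P231.S3A Vale.Agent.P231.S3B3

variable {E : Type*} [NormedAddCommGroup E] [NormedSpace ℝ E]
  {M : Type*} [MetricSpace M] [ChartedSpace E M]
  [RiemannianBundle (fun x : M => TangentSpace 𝓘(ℝ, E) x)]
  {e : ∀ x : M, TangentSpace 𝓘(ℝ, E) x → M}
  [FiniteDimensional ℝ E] [IsManifold 𝓘(ℝ, E) ∞ M]
  [IsContMDiffRiemannianBundle 𝓘(ℝ, E) ∞ E (fun x : M => TangentSpace 𝓘(ℝ, E) x)]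
  [CompactSpace M] [ConnectedSpace M] [IsRiemannianManifold 𝓘(ℝ, E) M]

variable {ι : Type} [Fintype ι] [DecidableEq ι]

/-- the Lipschitz constant of the octagons -/
def S8 (D : ℝ) : ℝ := (8 : ℕ) * lstp * (3 * D / 4)

/-- homotopic over `TB`, near the zero section, through octagons of energy at most
`2 D² - c ‖w‖²` -/
def Hm (F : Facts e) {D : ℝ} (hB : InjGE e D) (X δ : ι → UT E M → E) (ε : ℝ)
    (A B : UT E M × Wp ι → ZMod 8 → M) : Prop :=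
  ∃ r₀ : ℝ, 0 < r₀ ∧ ∃ c : ℝ, 0 < c ∧ ∀ r, r ≤ r₀ →
    LHt (dTB F D X δ ε r) (dM E M) (S8 D) (fun p => Ve D c (‖p.w‖ ^ 2))
      (fun p => pl (WD3.geoM F hB) (A (p.v, p.w))) (fun p => pl (WD3.geoM F hB) (B (p.v, p.w)))

variable {F : Facts e} {D : ℝ} {hD : 0 < D} {hB : InjGE e D} {hdiam : ∀ p q : M, dist p q ≤ D}
  {l : ℕ} {X δ Pc Ps : ι → UT E M → E} {ε r : ℝ} {A B C : UT E M × Wp ι → ZMod 8 → M}

theorem Hm.symm (h : Hm F hB X δ ε A B) : Hm F hB X δ ε B A := by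
  obtain ⟨r₀, h1, c, h2, h3⟩ := h
  exact ⟨r₀, h1, c, h2, fun r hr => (h3 r hr).symm⟩

theorem Hm.trans (h : Hm F hB X δ ε A B) (h' : Hm F hB X δ ε B C) : Hm F hB X δ ε A C := by
  obtain ⟨r₀, h1, c, h2, h3⟩ := h
  obtain ⟨r₁, h1', c', h2', h3'⟩ := h'
  refine ⟨min r₀ r₁, lt_min h1 h1', min c c', lt_min h2 h2', fun r hr => ?_⟩
  have k1 := (h3 r (hr.trans (min_le_left _ _))).mono (V' := fun p => Ve D (min c c') (‖p.w‖ ^ 2))
    le_rfl fun p => Ve_mono (min_le_left _ _) (sq_nonneg _)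
  have k2 := (h3' r (hr.trans (min_le_right _ _))).mono
    (V' := fun p => Ve D (min c c') (‖p.w‖ ^ 2)) le_rfl
    fun p => Ve_mono (min_le_right _ _) (sq_nonneg _)
  exact k1.trans k2

theorem Hm.congr (h : Hm F hB X δ ε A B) {A' B' : UT E M × Wp ι → ZMod 8 → M} {R : ℝ} (hR : 0 < R)
    (hA : ∀ v w, Fx F D X δ ε v w → ‖w‖ ≤ R → A (v, w) = A' (v, w))
    (hB' : ∀ v w, Fx F D X δ ε v w → ‖w‖ ≤ R → B (v, w) = B' (v, w)) : Hm F hB X δ ε A' B' := by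
  obtain ⟨r₀, h1, c, h2, h3⟩ := h
  refine ⟨min r₀ R, lt_min h1 hR, c, h2, fun r hr => ?_⟩
  refine LHt.congr' (h3 r (hr.trans (min_le_left _ _))) ?_ ?_
  · funext p
    rw [hA p.v p.w p.fx (p.nw.trans (hr.trans (min_le_right _ _)))]
  · funext p
    rw [hB' p.v p.w p.fx (p.nw.trans (hr.trans (min_le_right _ _)))]

/-- a homotopy of small energy -/
theorem PF.hm {H : (UT E M × Wp ι) × ℝ → ZMod 8 → M} {R c : ℝ} (hD : 0 < D) (hR : 0 < R)
    (hc : 0 < c) (h : PF F D X δ ε H R (3 * D / 4) c) :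
    Hm F hB X δ ε (fun q => H (q, 0)) (fun q => H (q, 1)) :=
  ⟨R, hR, c, hc, fun r hr => h.lht hB (by linarith) hr⟩

/-- 29's families are homotopies of small energy -/
theorem PF.of_lfm (hD : 0 < D) (hB : InjGE e D) (hdiam : ∀ p q : M, dist p q ≤ D)
    (hP : PrjF (P3 (Pm F D X δ ε))) {H : (UT E M × Wp ι) × ℝ → ZMod 8 → M}
    (h : LFm e D (P3 (Pm F D X δ ε)) H) :
    ∃ R : ℝ, 0 < R ∧ ∃ c : ℝ, 0 < c ∧ PF F D X δ ε H R (3 * D / 4) c := by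
  obtain ⟨R, hR, c, hc, k⟩ := LFm.unif F hD hB hdiam hP h
  refine ⟨R, hR, c, hc, fun {E'} _ _ _ {u x} hu i => h.smooth i hu, ?_, ?_⟩
  · exact fun v w hw hwR θ hθ i => (k v θ hθ w ((P3_iff v w).2 hw) hwR).2 i
  · exact fun v w hw hwR θ hθ => (k v θ hθ w ((P3_iff v w).2 hw) hwR).1

theorem Hm.of_lfm (hD : 0 < D) (hdiam : ∀ p q : M, dist p q ≤ D)
    (hP : PrjF (P3 (Pm F D X δ ε))) {H : (UT E M × Wp ι) × ℝ → ZMod 8 → M}
    (h : LFm e D (P3 (Pm F D X δ ε)) H) :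
    Hm F hB X δ ε (fun q => H (q, 0)) (fun q => H (q, 1)) := by
  obtain ⟨R, hR, c, hc, k⟩ := PF.of_lfm hD hB hdiam hP h
  exact k.hm hD hR hc

/-- the projections of a family with a gap -/
theorem prjF_Pm (h : S2N.Fam F hD hB hdiam l X δ ε) : PrjF (P3 (Pm F D X δ ε)) :=
  prjF_P3 (fun {V} _ _ _ {u x} hu => h.sm_Pm hu) h.Pm_Pm

/-- **the chain, from its polygonal part** -/
theorem chain_of (h : S2N.Fam F hD hB hdiam l X δ ε) {ε₁ : ℝ}
    (hPh : PhF F D X δ ε Pc Ps ε₁)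
    (hm : Hm F hB X δ ε (fun q i => kY F D X Pc Ps (q, tm D i)) B) :
    ∃ r₀ : ℝ, 0 < r₀ ∧ ∀ r, r ≤ r₀ → ∃ (S : ℝ) (V : TB F D X δ ε r → ℝ≥0∞), Mg F D X δ ε r V ∧
      LHt (dTB F D X δ ε r) (dM E M) S V (kT X Pc Ps)
        (fun p => pl (WD3.geoM F hB) (B (p.v, p.w))) := by
  have hX : ∀ i, Fld (X i) := fun i => (h.df i).fld
  obtain ⟨ρ, hρ, hsp⟩ := exists_sp_small F D hX hPh.fc hPh.fs
  obtain ⟨r₀, h1, c, hc, h3⟩ := hm
  refine ⟨min ε₁ (min ρ r₀), lt_min hPh.pos (lt_min hρ h1), fun r hr => ?_⟩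
  have hr1 : r ≤ ε₁ := hr.trans (min_le_left _ _)
  have hr2 : r ≤ ρ := hr.trans ((min_le_right _ _).trans (min_le_left _ _))
  have hr3 : r ≤ r₀ := hr.trans ((min_le_right _ _).trans (min_le_right _ _))
  exact ⟨_, _, mg_max (mg_Vk h hPh hr1) (mg_Ve hD hc),
    trans_max (lht_ok hD hB hdiam hX hPh.fc hPh.fs hsp hr2) (h3 r hr3)⟩

end

end Vale.Agent.P231.S3B5
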