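import Vale.Agent.P231.S3B5.Hom
import Vale.Agent.P231.S3Y.Lip
import Vale.Agent.P231.WD.GeoInst

/-!
# P231, stage 3, block S3-B, chain: the small part of the total space of `ξ + E'`
-/

set_option maxSynthPendingDepth 3
set_option linter.unusedSectionVars false
set_option linter.unusedVariables false

open Bundle Manifold Set Filter Module MeasureTheory
open scoped ContDiff Manifold Topology ENNReal

namespace Vale.Agent.P231.S3B5

noncomputable section

open Vale.Agent.P234 Vale.Agent.P231 Vale.Agent.P231.Fm Vale.Agent.P231.W Vale.Agent.P231.WR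
open Vale.Agent.P231.WF Vale.Agent.P231.H766 Vale.Agent.P231.S2N Vale.Agent.P231.S3S
open Vale.Agent.P231.S3Y Vale.Agent.P231.S3B1 Vale.Agent.P231.S3A

variable {E : Type*} [NormedAddCommGroup E] [NormedSpace ℝ E]
  {M : Type*} [MetricSpace M] [ChartedSpace E M]
  [RiemannianBundle (fun x : M => TangentSpace 𝓘(ℝ, E) x)]
  {e : ∀ x : M, TangentSpace 𝓘(ℝ, E) x → M}
  [FiniteDimensional ℝ E] [IsManifold 𝓘(ℝ, E) ∞ M]
  [IsContMDiffRiemannianBundle 𝓘(ℝ, E) ∞ E (fun x : M => TangentSpace 𝓘(ℝ, E) x)]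
  [CompactSpace M] [ConnectedSpace M] [IsRiemannianManifold 𝓘(ℝ, E) M]

variable {ι : Type} [Fintype ι] [DecidableEq ι]

/-- the points `(v, w)`, `w = (a, x, y)`, of the total space of `ξ + E'` with `‖w‖ ≤ r` -/
structure TB (F : Facts e) (D : ℝ) (X δ : ι → UT E M → E) (ε r : ℝ) where
  v : UT E M
  w : Wp ι
  pa : Pm F D X δ ε v w.1 = w.1
  px : Pm F D X δ ε v w.2.1 = w.2.1
  py : Pm F D X δ ε v w.2.2 = w.2.2
  nw : ‖w‖ ≤ r

variable {F : Facts e} {D : ℝ} {X δ Pc Ps : ι → UT E M → E} {ε r : ℝ}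

@[ext] theorem TB.ext {p q : TB F D X δ ε r} (hv : p.v = q.v) (hw : p.w = q.w) : p = q := by
  cases p
  cases q
  simp only at hv hw
  subst hv hw
  rfl

/-- the diffeology of `TB` -/
def dTB (F : Facts e) (D : ℝ) (X δ : ι → UT E M → E) (ε r : ℝ) : Dif (TB F D X δ ε r) where
  At {E'} _ _ _ u z := (dUT E M).At (fun s => (u s).v) z ∧ Sm (fun s => (u s).w) z
  open' h := (Dif.open' _ h.1).and (Dif.open' (Dif.lin (Wp ι)) h.2)
  congr h huv := ⟨(dUT E M).congr h.1 (huv.mono fun y hy => congrArg TB.v hy),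
    (Dif.lin (Wp ι)).congr h.2 (huv.mono fun y hy => congrArg TB.w hy)⟩
  comp h hg := ⟨(dUT E M).comp h.1 hg, (Dif.lin (Wp ι)).comp h.2 hg⟩

theorem map_TB_v : (dTB F D X δ ε r).Map (dUT E M) TB.v := fun h => h.1

theorem map_TB_w : (dTB F D X δ ε r).Map (Dif.lin (Wp ι)) TB.w := fun h => h.2

theorem at_const_TB (p : TB F D X δ ε r) {V : Type} [NormedAddCommGroup V] [NormedSpace ℝ V]
    [FiniteDimensional ℝ V] (z : V) : (dTB F D X δ ε r).At (fun _ => p) z :=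
  ⟨H583.at_const p.v z, Sm.of_contDiff contDiff_const z⟩

/-- a smaller ball -/
def TB.inc {r' : ℝ} (h : r ≤ r') (p : TB F D X δ ε r) : TB F D X δ ε r' :=
  ⟨p.v, p.w, p.pa, p.px, p.py, p.nw.trans h⟩

theorem map_inc {r' : ℝ} (h : r ≤ r') :
    (dTB F D X δ ε r).Map (dTB F D X δ ε r') (TB.inc h) := fun hu => ⟨hu.1, hu.2⟩

/-! ### the doubled loops -/

theorem rW_per (hD : 0 < D) (w : Wp ι) (t : ℝ) : rW D w (t + 4 * D) = rW D w t := by
  unfold rW
  have h1 : om D * (t + 4 * D) = om D * t + 2 * Real.pi := by rw [mul_add, om_per hD]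
  rw [h1, ← rx_add, ← ry_add, rx_two_pi, ry_two_pi]

/-- the pushed doubled loops, with period one -/
def kT (X Pc Ps : ι → UT E M → E) (p : TB F D X δ ε r) (t : ℝ) : M :=
  kY F D X Pc Ps ((p.v, p.w), 4 * D * t)

theorem kT_per (hD : 0 < D) (hB : InjGE e D) (hdiam : ∀ p q : M, dist p q ≤ D)
    (p : TB F D X δ ε r) (t : ℝ) : kT X Pc Ps p (t + 1) = kT X Pc Ps p t := by
  unfold kT
  have h1 : 4 * D * (t + 1) = 4 * D * t + 4 * D := by ring
  unfold kY
  simp only [h1]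
  rw [rW_per hD]
  have h2 : phi F (p.v, 4 * D * t + 4 * D) = phi F (p.v, 4 * D * t) := by
    rw [add_comm, ← phi_add, phi_four F hD hB hdiam]
  rw [h2]

theorem map_kT (hX : ∀ i, Fld (X i)) (hc : ∀ i, Fld (Pc i)) (hs : ∀ i, Fld (Ps i)) :
    ((dTB F D X δ ε r).prod (Dif.lin ℝ)).Map (dM E M) (fun p => kT X Pc Ps p.1 p.2) := by
  intro E' _ _ _ u z hu
  have h3 : Sm (fun s => (u s).2) z := hu.2
  have h4 : Sm (fun s => 4 * D * (u s).2) z := by
    filter_upwards [h3] with q hq using contDiffAt_const.mul hq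
  exact map_kY F hX hc hs (u := fun s => (((u s).1.v, (u s).1.w), 4 * D * (u s).2))
    ⟨⟨hu.1.1, hu.1.2⟩, h4⟩

/-- the bound for the variation of the pushed doubled loops -/
def Vk (X Pc Ps : ι → UT E M → E) (p : TB F D X δ ε r) : ℝ≥0∞ :=
  ENNReal.ofReal ((eY F D X Pc Ps (p.v, p.w) + 4 * D) / 2)

theorem var_kT (hD : 0 < D) (hX : ∀ i, Fld (X i)) (hc : ∀ i, Fld (Pc i)) (hs : ∀ i, Fld (Ps i))
    (p : TB F D X δ ε r) : eVariationOn (kT X Pc Ps p) (Icc 0 1) ≤ Vk X Pc Ps p := by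
  have h4D : (0 : ℝ) ≤ 4 * D := by linarith
  have h1 := variation_le (cmd_kY (D := D) F hX hc hs p.v p.w) h4D
  have h2 := eVariationOn.comp_le_of_monotoneOn (fun t => kY F D X Pc Ps ((p.v, p.w), t))
    (φ := fun t : ℝ => 4 * D * t) (t := Icc (0 : ℝ) 1) (s := Icc 0 (4 * D))
    (fun x _ y _ h => mul_le_mul_of_nonneg_left h h4D)
    (fun x hx => ⟨mul_nonneg h4D hx.1, by
      have := mul_le_mul_of_nonneg_left hx.2 h4D
      linarith⟩)
  exact h2.trans h1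

section Cpt

attribute [local instance] WF.topUT

/-- the set of the parameters of norm between `s` and `r` -/
def KT (F : Facts e) (D : ℝ) (X δ : ι → UT E M → E) (ε s r : ℝ) : Set (UT E M × Wp ι) :=
  {q | (Pm F D X δ ε q.1 q.2.1 = q.2.1 ∧ Pm F D X δ ε q.1 q.2.2.1 = q.2.2.1 ∧
    Pm F D X δ ε q.1 q.2.2.2 = q.2.2.2) ∧ s ≤ ‖q.2‖ ∧ ‖q.2‖ ≤ r}

theorem isCompact_KT {l : ℕ} {hD : 0 < D} {hB : InjGE e D} {hdiam : ∀ p q : M, dist p q ≤ D}
    (h : S2N.Fam F hD hB hdiam l X δ ε) (s r : ℝ) : IsCompact (KT F D X δ ε s r) := by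
  have : CompactSpace (UT E M) := compactSpace_UT
  have hP : Continuous (Pm F D X δ ε) := S3N.cont_UT0 (fun {V} _ _ _ {u s} hu => h.sm_Pm hu)
  have hap : ∀ f : UT E M × Wp ι → EuclideanSpace ℝ ι, Continuous f →
      IsClosed {q : UT E M × Wp ι | Pm F D X δ ε q.1 (f q) = f q} := fun f hf =>
    isClosed_eq ((hP.comp continuous_fst).clm_apply hf) hf
  have hK : IsCompact ((univ : Set (UT E M)) ×ˢ Metric.closedBall (0 : Wp ι) r) :=
    isCompact_univ.prod (isCompact_closedBall _ _)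
  refine hK.of_isClosed_subset ?_ ?_
  · refine IsClosed.inter ?_ (IsClosed.inter ?_ ?_)
    · exact (hap (fun q => q.2.1) (by fun_prop)).inter ((hap (fun q => q.2.2.1) (by fun_prop)).inter
        (hap (fun q => q.2.2.2) (by fun_prop)))
    · exact isClosed_le (g := fun q : UT E M × Wp ι => ‖q.2‖) continuous_const (by fun_prop)
    · exact isClosed_le (f := fun q : UT E M × Wp ι => ‖q.2‖) (by fun_prop) continuous_const
  · rintro ⟨v, w⟩ ⟨-, h2, h3⟩
    exact ⟨mem_univ _, mem_closedBall_zero_iff.2 h3⟩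

end Cpt

theorem eY_lt {ε₁ : ℝ} (hPh : PhF F D X δ ε Pc Ps ε₁) (hr : r ≤ ε₁) (p : TB F D X δ ε r)
    (hp : p.w ≠ 0) : eY F D X Pc Ps (p.v, p.w) < 4 * D := by
  have h1 := p.nw.trans hr
  have h2 : ‖p.w.1‖ ≤ ε₁ := (norm_fst_le p.w).trans h1
  have h3 : ‖p.w.2‖ ≤ ε₁ := (norm_snd_le p.w).trans h1
  exact hPh.en p.v p.w.1 p.w.2.1 p.w.2.2 p.pa p.px p.py (fun h => hp h) h2
    ((norm_fst_le p.w.2).trans h3) ((norm_snd_le p.w.2).trans h3)

end

end Vale.Agent.P231.S3B5
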