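import Vale.Agent.P231.S3B5.End
import Vale.Agent.P231.S3B3.Mix

/-!
# P231, stage 3, block S3-B, chain: from the fields concentrated near the corners to the closed family
-/

set_option maxSynthPendingDepth 3
set_option linter.unusedSectionVars false
set_option linter.unusedVariables false

open Bundle Manifold Set Filter Module MeasureTheory
open scoped ContDiff Manifold Topology ENNReal

namespace Vale.Agent.P231.S3B5

noncomputable section

open Vale.Agent.P234 Vale.Agent.P231 Vale.Agent.P231.Fm Vale.Agent.P231.W Vale.Agent.P231.WR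
open Vale.Agent.P231.WF Vale.Agent.P231.H766 Vale.Agent.P231.S2N Vale.Agent.P231.S3S
open Vale.Agent.P231.S3Y Vale.Agent.P231.S3B1 Vale.Agent.P231.S3A Vale.Agent.P231.S3B3

variable {E : Type*} [NormedAddCommGroup E] [NormedSpace ℝ E]
  {M : Type*} [MetricSpace M] [ChartedSpace E M]
  [RiemannianBundle (fun x : M => TangentSpace 𝓘(ℝ, E) x)]
  {e : ∀ x : M, TangentSpace 𝓘(ℝ, E) x → M}
  [FiniteDimensional ℝ E] [IsManifold 𝓘(ℝ, E) ∞ M]
  [IsContMDiffRiemannianBundle 𝓘(ℝ, E) ∞ E (fun x : M => TangentSpace 𝓘(ℝ, E) x)]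
  [CompactSpace M] [ConnectedSpace M] [IsRiemannianManifold 𝓘(ℝ, E) M]

variable {ι : Type} [Fintype ι] [DecidableEq ι]

variable {F : Facts e} {D : ℝ} {hD : 0 < D} {hB : InjGE e D} {hdiam : ∀ p q : M, dist p q ≤ D}
  {l : ℕ} {X δ Pc Ps : ι → UT E M → E} {ε r : ℝ}
  {P : UT E M → EuclideanSpace ℝ ι →L[ℝ] EuclideanSpace ℝ ι}
  {wm : UT E M → EuclideanSpace ℝ ι → E} {ψ : ℝ → ℝ}

/-- coefficient families in the sense of `Mix` -/
theorem Cof.cc {C : (UT E M × Wp ι) × ℝ → Fin 4 → EuclideanSpace ℝ ι} (h : Cof P C) :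
    CC P (P3 P) C := ⟨h.smul, h.smooth, fun v θ w j => h.fix v w θ j, h.opn⟩

theorem cof_const {C : (UT E M × Wp ι) × ℝ → Fin 4 → EuclideanSpace ℝ ι} (h : Cof P C)
    {θ₀ : ℝ} (hθ : θ₀ ∈ Icc (0 : ℝ) 1) : Cof P (fun p => C (p.1, θ₀)) where
  smul v w θ r j := h.smul v w θ₀ r j
  smooth j E' _ _ _ u x hu := h.smooth j (u := fun s => ((u s).1, θ₀))
    ⟨hu.1, Sm.of_contDiff contDiff_const _⟩
  fix v w θ j hw := h.fix v w θ₀ j hw
  opn v θ _ w hw hw0 := h.opn v θ₀ hθ w hw hw0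

/-! ### the fields concentrated near the corners -/

/-- the octagons of the fields concentrated near the corners -/
def YH (F : Facts e) (D : ℝ) (ψ : ℝ → ℝ) (wm : UT E M → EuclideanSpace ℝ ι → E)
    (p : (UT E M × Wp ι) × ℝ) (i : ZMod 8) : M :=
  e (x8 e D p.1.1 i) (Xh F D ψ wm p i : E)

theorem sfm_YH (hψ : Bmp ψ) (hS : Src F hD hB hdiam P wm) : SFm e D (YH F D ψ wm) where
  smooth i E' _ _ _ u x hu := at_exp F (at_Xh hψ hS hu i)
  zero v θ := by
    funext i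
    have h1 : Xh F D ψ wm ((v, 0), θ) i = 0 := by
      have h2 := Xh_smul (ψ := ψ) hS v 0 θ 0 i
      rwa [zero_smul, zero_smul] at h2
    unfold YH
    rw [h1]
    exact F.isExp.map_zero _

/-- the broken fields of the slices -/
def kD (F : Facts e) (D : ℝ) (wm : UT E M → EuclideanSpace ℝ ι → E)
    (p : (UT E M × Wp ι) × ℝ) (j : Fin 4) : E := wm (vj F D p.1.1 j) (Csl D p j)

theorem cf_kD (hS : Src F hD hB hdiam P wm) : CF F hD hB hdiam (P3 P) (kD F D wm) :=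
  Cof.cf hS (cof_Csl hD)

theorem YH_zero (hψ : Bmp ψ) (hS : Src F hD hB hdiam P wm) (q : UT E M × Wp ι) :
    YH F D ψ wm (q, 0) = YB F D (kD F D wm) (q, 0) := by
  funext i
  have h1 : (fun j => wm (vj F D q.1 j) (cc D j q.2)) = kD F D wm (q, 0) := by
    funext j
    unfold kD
    rw [Csl_zero]
  unfold YH YB
  rw [Xh_zero hψ hS, h1]

/-- **(c)** the fields concentrated near the corners -/
theorem exists_YH (hψ : Bmp ψ) (hP3 : PrjF (P3 P)) (hS : Src F hD hB hdiam P wm) :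
    ∃ h₁ : ℝ, 0 < h₁ ∧ (∀ h₀, |h₀| ≤ h₁ →
      LFm e D (P3 P) (fun p => YH F D ψ wm (p.1, h₀ * p.2))) ∧
      ∀ h₀, |h₀| ≤ h₁ → ∀ v w, P3 P v w = w → w ≠ 0 →
        Neg D (fun r => YH F D ψ wm ((v, r • w), h₀)) := by
  have hs := sfm_YH (hD := hD) (hB := hB) (hdiam := hdiam) hψ hS
  obtain ⟨h₁, hh, hn⟩ := SFm.tube F hD hB hdiam hP3 hs (fun v w hw hw0 => by
    have h1 := (cf_kD hS).lfm_YB.neg v 0 ⟨le_rfl, zero_le_one⟩ w hw hw0
    have h2 : (fun r : ℝ => YH F D ψ wm ((v, r • w), 0)) =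
        fun r : ℝ => YB F D (kD F D wm) ((v, r • w), 0) := by
      funext r
      exact YH_zero hψ hS _
    rw [h2]
    exact h1)
  refine ⟨h₁, hh, fun h₀ hh₀ => ?_, fun h₀ hh₀ v w hw hw0 => hn h₀ hh₀ v w hw hw0⟩
  refine (hs.comp (g := fun θ => h₀ * θ) (contDiff_const.mul contDiff_id)).lfm
    fun v θ hθ w hw hw0 => hn (h₀ * θ) ?_ v w hw hw0
  rw [abs_mul, abs_of_nonneg hθ.1]
  calc |h₀| * θ ≤ |h₀| * 1 := mul_le_mul_of_nonneg_left hθ.2 (abs_nonneg _)
    _ ≤ h₁ := by rw [mul_one]; exact hh₀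

/-! ### the tail -/

/-- **the tail of the chain** -/
theorem hm_tail (hP : ∀ x y : M, dist x y = D → finrank ℝ (H775.Pl e D x y) = l + 1)
    (h : S2N.Fam F hD hB hdiam l X δ ε) (hψ : Bmp ψ)
    (hS : Src F hD hB hdiam (Pm F D X δ ε) wm)
    (hT : Src F hD hB hdiam (Pm F D X δ ε) (fun u c => Th0 F hD hB hdiam (XX X c) u))
    (hpos : ∀ θ ∈ Icc (0 : ℝ) 1, ∀ u c, Pm F D X δ ε u c = c →
      mx wm (fun u c => Th0 F hD hB hdiam (XX X c) u) θ u c = 0 → c = 0)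
    {h₀ : ℝ} (hh : LFm e D (P3 (Pm F D X δ ε)) (fun p => YH F D ψ wm (p.1, h₀ * p.2))) :
    Hm F hB X δ ε (fun q => YH F D ψ wm (q, h₀)) (fun q => v8 F (S3B1.Gc hP h (q.1, lamV D q.2))) := by
  have hp := prjF_Pm h
  -- (c)
  have c1 : Hm F hB X δ ε (fun q => YH F D ψ wm (q, h₀)) (fun q => YB F D (kD F D wm) (q, 0)) := by
    have k := (Hm.of_lfm (hB := hB) hD hdiam hp hh).symm
    refine k.congr one_pos (fun v w _ _ => ?_) (fun v w _ _ => ?_)
    · simp only [mul_one]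
    · simp only [mul_zero]
      exact YH_zero hψ hS _
  -- (d)
  have c2 : Hm F hB X δ ε (fun q => YB F D (kD F D wm) (q, 0))
      (fun q => YB F D (kD F D wm) (q, 1)) := Hm.of_lfm hD hdiam hp (cf_kD hS).lfm_YB
  -- (e)
  have hC1 : Cof (Pm F D X δ ε) (fun p : (UT E M × Wp ι) × ℝ => Csl D (p.1, 1)) :=
    cof_const (cof_Csl hD) ⟨zero_le_one, le_rfl⟩
  have c3 : Hm F hB X δ ε (fun q => YB F D (kD F D wm) (q, 1))
      (fun q => YB F D (kE F hD hB hdiam X) (q, 1)) := by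
    have k := Hm.of_lfm (hB := hB) hD hdiam hp
      (cf_mix hS hT hpos (Cof.cc hC1) (g := fun θ => θ) contDiff_id fun θ hθ => hθ).lfm_YB
    refine k.congr one_pos (fun v w _ _ => ?_) (fun v w _ _ => ?_)
    · funext i
      unfold YB
      simp only [mx_zero]
      rfl
    · funext i
      unfold YB
      simp only [mx_one]
      rfl
  -- (f)
  have hE : CF F hD hB hdiam (P3 (Pm F D X δ ε)) (kE F hD hB hdiam X) := Cof.cf hT (cof_Csl hD)
  have c4 : Hm F hB X δ ε (fun q => YB F D (kE F hD hB hdiam X) (q, 1))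
      (fun q => v8 F (S3B1.Gc hP h (q.1, lamV D q.2))) := by
    have k := Hm.of_lfm (hB := hB) hD hdiam hp (hE.lfm_YI (θ₀ := 1) ⟨zero_le_one, le_rfl⟩)
    obtain ⟨R, hR, he⟩ := exists_end hP h
    refine k.congr hR (fun v w _ _ => ?_) (fun v w hw hwR => ?_)
    · exact YI_zero F 1 (v, w)
    · rw [← he v w hw hwR]
      exact YI_one hE 1 (v, w)
  exact ((c1.trans c2).trans c3).trans c4

end

end Vale.Agent.P231.S3B5
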